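import Vale.Agent.P338.R2.H784.Bp.Spec

/-!
P338, stage 3, module S3-NUM1: the chirp transform over `Z / q ^ 4` (numbers only).
-/

namespace Vale.Agent.P338.R2.H282.Bp

open H784.Bp
open H525.Fp (tri)

/-! ### Triangular numbers -/

theorem tri_zero : tri 0 = 0 := rfl

theorem tri_succ (d : ℕ) : tri (d + 1) = tri d + d := by
  unfold tri
  rcases d with _ | d
  · rfl
  · have h : (d + 1 + 1) * (d + 1 + 1 - 1) = (d + 1) * (d + 1 - 1) + (d + 1) * 2 := by
      simp only [Nat.add_sub_cancel]; ring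
    rw [h, Nat.add_mul_div_right _ _ (by norm_num)]

theorem tri_add (a b : ℕ) : tri (a + b) = tri a + tri b + a * b := by
  induction b with
  | zero => simp [tri_zero]
  | succ b ih => rw [← add_assoc, tri_succ, ih, tri_succ]; ring

/-- The exponent identity of the chirp, `u = k + (P - 1) - i`. -/
theorem tz_id {P i : ℕ} (hi : i < P) (k : ℕ) :
    i * k + tz P (k + (P - 1) - i) = tri k + tri (i + 1) := by
  unfold tz
  split_ifs with h
  · -- `k ≤ i`
    obtain ⟨d, rfl⟩ : ∃ d, i = k + d := ⟨i - k, by omega⟩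
    rw [show P - (k + (P - 1) - (k + d)) = d + 1 by omega, tri_succ, tri_succ, tri_add]
    have h1 : tri k + tri k + k = k * k := by
      clear h hi
      induction k with
      | zero => simp [tri_zero]
      | succ k ih => rw [tri_succ]; linarith
    nlinarith
  · obtain ⟨d, rfl⟩ : ∃ d, k = i + d := ⟨k - i, by omega⟩
    rw [show i + d + (P - 1) - i + 1 - P = d by omega, tri_succ, tri_add]
    have h1 : tri i + tri i + i = i * i := by
      clear h hi
      induction i with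
      | zero => simp [tri_zero]
      | succ k ih => rw [tri_succ]; linarith
    nlinarith

/-! ### The value of a transform -/

theorem preN_mod (m r x i : ℕ) : preN m r x i ≡ x * r ^ tri (i + 1) [MOD m] :=
  (Nat.mod_modEq _ _).trans ((Nat.ModEq.refl x).mul (Nat.mod_modEq _ _))

theorem kerN_mod (P m ri u : ℕ) : kerN P m ri u ≡ ri ^ tz P u [MOD m] := Nat.mod_modEq _ _

/-- (b) -/
theorem cztN_eq' {P m r ri : ℕ} (hr : r * ri ≡ 1 [MOD m]) (x y : ℕ → ℕ)
    (hy : ∀ i < P, y i ≡ x i * r ^ tri (i + 1) [MOD m]) (k : ℕ) :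
    cztN P m r ri y k = (∑ i ∈ Finset.range P, x i * r ^ (i * k)) % m := by
  unfold cztN
  have key : (∑ i ∈ Finset.range P, y i * kerN P m ri (k + (P - 1) - i)) * (r ^ tri k % m) ≡
      ∑ i ∈ Finset.range P, x i * r ^ (i * k) [MOD m] := by
    have h1 : (∑ i ∈ Finset.range P, y i * kerN P m ri (k + (P - 1) - i)) * (r ^ tri k % m) ≡
        (∑ i ∈ Finset.range P, y i * kerN P m ri (k + (P - 1) - i)) * r ^ tri k [MOD m] :=
      (Nat.ModEq.refl _).mul (Nat.mod_modEq _ _)
    refine h1.trans ?_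
    rw [Finset.sum_mul]
    refine Nat.ModEq.sum fun i hi => ?_
    have hi' := Finset.mem_range.1 hi
    have h2 := ((hy i hi').mul (kerN_mod P m ri (k + (P - 1) - i))).mul_right (r ^ tri k)
    refine h2.trans ?_
    have e : x i * r ^ tri (i + 1) * ri ^ tz P (k + (P - 1) - i) * r ^ tri k =
        x i * r ^ (i * k) * (r * ri) ^ tz P (k + (P - 1) - i) := by
      have e1 : r ^ tri (i + 1) * r ^ tri k = r ^ (i * k) * r ^ tz P (k + (P - 1) - i) := by
        rw [← pow_add, ← pow_add, tz_id hi' k, add_comm]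
      calc x i * r ^ tri (i + 1) * ri ^ tz P (k + (P - 1) - i) * r ^ tri k
          = x i * (r ^ tri (i + 1) * r ^ tri k) * ri ^ tz P (k + (P - 1) - i) := by ring
        _ = _ := by rw [e1, mul_pow]; ring
    rw [e]
    have h3 := (Nat.ModEq.refl (x i * r ^ (i * k))).mul (hr.pow (tz P (k + (P - 1) - i)))
    rwa [one_pow, mul_one] at h3
  exact key

/-- (b) -/
theorem cztN_eq {P m r ri : ℕ} (hr : r * ri % m = 1) (hm : 1 < m) (x : ℕ → ℕ) (k : ℕ) :
    cztN P m r ri (fun i => preN m r (x i) i) k =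
      (∑ i ∈ Finset.range P, x i * r ^ (i * k)) % m :=
  cztN_eq' (by unfold Nat.ModEq; rw [hr, Nat.mod_eq_of_lt hm]) x _
    (fun i _ => preN_mod m r (x i) i) k

/-! ### (a) Sizes -/

section Sizes

variable {W q om nu iv : ℕ}

theorem gB_ge (hW : 1024 ≤ W) : 11 ≤ gB W := by
  have : 10 ≤ Nat.log 2 W := Nat.le_log_of_pow_le (by norm_num) (by norm_num; exact hW)
  unfold gB; omega

theorem lt_two_pow_gB (W : ℕ) : W < 2 ^ gB W := Nat.lt_pow_succ_log_self (by norm_num) W

theorem two_pow_gB_le (hW : W ≠ 0) : 2 ^ gB W ≤ 2 * W := by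
  unfold gB
  rw [pow_succ, mul_comm]
  exact Nat.mul_le_mul_left 2 (Nat.pow_log_le_self 2 hW)

theorem gB_pos (W : ℕ) : 0 < gB W := Nat.succ_pos _

theorem gB_mul_dB (W : ℕ) : gB W * dB W = W + padB W := by
  have h := Nat.div_add_mod W (gB W)
  have h2 := Nat.mod_lt W (gB_pos W)
  unfold padB dB
  rw [Nat.mul_add, Nat.mul_one]
  omega

theorem one_le_padB (W : ℕ) : 1 ≤ padB W := by
  have h := Nat.div_add_mod W (gB W)
  have h2 := Nat.mod_lt W (gB_pos W)
  unfold padB dB
  rw [Nat.mul_add, Nat.mul_one]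
  omega

theorem padB_le (W : ℕ) : padB W ≤ gB W := by
  have h := Nat.div_add_mod W (gB W)
  have h2 := Nat.mod_lt W (gB_pos W)
  unfold padB dB
  rw [Nat.mul_add, Nat.mul_one]
  omega

theorem one_le_dB (W : ℕ) : 1 ≤ dB W := Nat.succ_pos _

theorem W_lt_mul (W : ℕ) : W < gB W * dB W := by
  rw [gB_mul_dB]; have := one_le_padB W; omega

theorem four_dB_le (hW : 1024 ≤ W) : 4 * dB W ≤ W := by
  have h := gB_ge hW
  have h1 : W / gB W ≤ W / 11 := Nat.div_le_div_left h (by norm_num)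
  unfold dB
  omega

theorem cube_le (g : ℕ) (hg : 11 ≤ g) : g ^ 3 ≤ 2 ^ (g + 1) := by
  induction g, hg using Nat.le_induction with
  | base => norm_num
  | succ g hg ih =>
    rw [pow_succ 2 (g + 1)]
    nlinarith [Nat.mul_le_mul hg hg, Nat.mul_le_mul (Nat.mul_le_mul hg hg) hg]

variable (hQ : Prm W q om nu iv)

include hQ

theorem q_le : q ≤ 2 ^ gB W :=
  hQ.hq2.trans ((four_dB_le hQ.hW).trans (lt_two_pow_gB W).le)

theorem q_le_W : q ≤ W := hQ.hq2.trans (four_dB_le hQ.hW)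

theorem m_le : q ^ 4 ≤ 2 ^ (4 * gB W) := by
  rw [mul_comm, pow_mul]; exact Nat.pow_le_pow_left (q_le hQ) 4

theorem D_mul_lt : dB W * 2 ^ (2 * gB W) < q ^ 4 := by
  have hW := hQ.hW
  have hg := gB_ge hW
  have h1 := cube_le _ hg
  have h2 := two_pow_gB_le (W := W) (by omega)
  have h3 : (gB W) ^ 3 ≤ 4 * W := by rw [pow_succ 2 (gB W)] at h1; omega
  have h4 : W ≤ gB W * dB W := (W_lt_mul W).le
  have h5 : 4 * W ^ 2 ≤ 16 * dB W ^ 3 := by
    have hpos : 0 < gB W ^ 3 := pow_pos (gB_pos W) 3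
    refine Nat.le_of_mul_le_mul_right (c := gB W ^ 3) ?_ hpos
    calc 4 * W ^ 2 * gB W ^ 3 ≤ 4 * W ^ 2 * (4 * W) := Nat.mul_le_mul_left _ h3
      _ = 16 * W ^ 3 := by ring
      _ ≤ 16 * (gB W * dB W) ^ 3 := Nat.mul_le_mul_left _ (Nat.pow_le_pow_left h4 3)
      _ = 16 * dB W ^ 3 * gB W ^ 3 := by ring
  have h6 : 2 ^ (2 * gB W) ≤ 4 * W ^ 2 := by
    calc 2 ^ (2 * gB W) = (2 ^ gB W) ^ 2 := by rw [mul_comm, pow_mul]
      _ ≤ (2 * W) ^ 2 := Nat.pow_le_pow_left h2 2
      _ = 4 * W ^ 2 := by ring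
  calc dB W * 2 ^ (2 * gB W) ≤ dB W * (16 * dB W ^ 3) := Nat.mul_le_mul_left _ (h6.trans h5)
    _ = (2 * dB W) ^ 4 := by ring
    _ < q ^ 4 := Nat.pow_lt_pow_left hQ.hq1 (by norm_num)

theorem two_D_le : 2 * dB W - 1 ≤ q - 1 := by have := hQ.hq1; omega

theorem two_lt_q : 2 < q := by have := hQ.hq1; have := one_le_dB W; omega

theorem m_pos : 0 < q ^ 4 := pow_pos hQ.hq.pos 4

theorem one_lt_m : 1 < q ^ 4 := Nat.one_lt_pow (by norm_num) hQ.hq.one_lt

end Sizes

/-! ### (c) The root of unity -/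

section Root

variable {W q om nu iv : ℕ} (hQ : Prm W q om nu iv)

include hQ

theorem om_pow_modEq : om ^ (q - 1) ≡ 1 [MOD q ^ 4] := by
  unfold Nat.ModEq; rw [hQ.om_pow, Nat.mod_eq_of_lt (one_lt_m hQ)]

theorem om_mul_nu_modEq : om * nu ≡ 1 [MOD q ^ 4] := by
  unfold Nat.ModEq; rw [hQ.om_nu, Nat.mod_eq_of_lt (one_lt_m hQ)]

theorem nu_mul_om : nu * om % q ^ 4 = 1 := by
  rw [mul_comm]; exact hQ.om_nu

theorem om_pow_ne {i : ℕ} (h0 : 0 < i) (hi : i < q - 1) : ((om : ℕ) : ZMod q) ^ i ≠ 1 := by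
  intro h
  refine hQ.om_ne i h0 hi ?_
  have h2 : ((om ^ i : ℕ) : ZMod q) = ((1 : ℕ) : ZMod q) := by push_cast; exact h
  have h3 := (ZMod.natCast_eq_natCast_iff _ _ _).1 h2
  unfold Nat.ModEq at h3
  rwa [Nat.mod_eq_of_lt hQ.hq.one_lt] at h3

/-- `om ^ i - 1` is a unit. -/
theorem isUnit_om {i : ℕ} (h0 : 0 < i) (hi : i < q - 1) :
    IsUnit (((om : ℕ) : ZMod (q ^ 4)) ^ i - 1) := by
  have h1 : (((om : ℕ) : ZMod (q ^ 4)) ^ i - 1) =
      (((om : ℤ) ^ i - 1 : ℤ) : ZMod (q ^ 4)) := by push_cast; rfl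
  rw [h1, ZMod.coe_int_isUnit_iff_isCoprime]
  push_cast
  refine IsCoprime.pow_left ?_
  refine ((Nat.prime_iff_prime_int.1 hQ.hq).irreducible.coprime_iff_not_dvd).2 ?_
  intro h
  refine om_pow_ne hQ h0 hi ?_
  have h2 := (ZMod.intCast_zmod_eq_zero_iff_dvd ((om : ℤ) ^ i - 1) q).2 h
  push_cast at h2
  exact sub_eq_zero.1 h2

theorem om_mul_nu_cast : ((om : ℕ) : ZMod (q ^ 4)) * ((nu : ℕ) : ZMod (q ^ 4)) = 1 := by
  have h := (ZMod.natCast_eq_natCast_iff _ _ _).2 (om_mul_nu_modEq hQ)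
  push_cast at h
  exact h

theorem om_pow_cast : ((om : ℕ) : ZMod (q ^ 4)) ^ (q - 1) = 1 := by
  have h := (ZMod.natCast_eq_natCast_iff _ _ _).2 (om_pow_modEq hQ)
  push_cast at h
  exact h

theorem iv_cast : (((q - 1 : ℕ) : ℕ) : ZMod (q ^ 4)) * ((iv : ℕ) : ZMod (q ^ 4)) = 1 := by
  have h1 : (q - 1) * iv ≡ 1 [MOD q ^ 4] := by
    unfold Nat.ModEq; rw [hQ.iv_inv, Nat.mod_eq_of_lt (one_lt_m hQ)]
  have h := (ZMod.natCast_eq_natCast_iff _ _ _).2 h1
  rw [Nat.cast_mul, Nat.cast_one] at h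
  exact h

/-- Orthogonality. -/
theorem orth {a b : ℕ} (ha : a < q - 1) (hb : b < q - 1) :
    ∑ k ∈ Finset.range (q - 1), ((om : ℕ) : ZMod (q ^ 4)) ^ (a * k) *
      ((nu : ℕ) : ZMod (q ^ 4)) ^ (b * k) * ((iv : ℕ) : ZMod (q ^ 4)) =
      if a = b then 1 else 0 := by
  set o : ZMod (q ^ 4) := ((om : ℕ) : ZMod (q ^ 4)) with ho
  set v : ZMod (q ^ 4) := ((nu : ℕ) : ZMod (q ^ 4)) with hv
  have hov : o * v = 1 := om_mul_nu_cast hQ
  have hvo : v * o = 1 := by rw [mul_comm]; exact hov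
  have ho1 : o ^ (q - 1) = 1 := om_pow_cast hQ
  have hv1 : v ^ (q - 1) = 1 := by
    have : (o * v) ^ (q - 1) = 1 := by rw [hov, one_pow]
    rwa [mul_pow, ho1, one_mul] at this
  rw [← Finset.sum_mul]
  rcases lt_trichotomy a b with h | h | h
  · rw [if_neg h.ne]
    obtain ⟨d, rfl⟩ : ∃ d, b = a + d := ⟨b - a, by omega⟩
    have h1 : ∑ k ∈ Finset.range (q - 1), o ^ (a * k) * v ^ ((a + d) * k) =
        ∑ k ∈ Finset.range (q - 1), (v ^ d) ^ k := by
      refine Finset.sum_congr rfl fun k _ => ?_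
      rw [Nat.add_mul, pow_add, ← mul_assoc, ← mul_pow, hov, one_pow, one_mul, pow_mul]
    have hu : IsUnit (v ^ d - 1) := by
      have h2 := isUnit_om hQ (i := d) (by omega) (by omega)
      have h3 : v ^ d - 1 = -(v ^ d * (o ^ d - 1)) := by
        have : v ^ d * o ^ d = 1 := by rw [← mul_pow, hvo, one_pow]
        linear_combination this
      rw [h3]
      refine (IsUnit.mul ?_ h2).neg
      exact (IsUnit.of_mul_eq_one o hvo).pow d
    have h4 : (v ^ d - 1) * ∑ k ∈ Finset.range (q - 1), (v ^ d) ^ k = 0 := by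
      rw [mul_comm, geom_sum_mul, ← pow_mul, mul_comm d, pow_mul, hv1, one_pow, sub_self]
    rw [h1, (hu.mul_right_eq_zero).1 h4, zero_mul]
  · subst h
    rw [if_pos rfl]
    have h1 : ∑ k ∈ Finset.range (q - 1), o ^ (a * k) * v ^ (a * k) =
        ((q - 1 : ℕ) : ZMod (q ^ 4)) := by
      rw [Finset.sum_congr rfl (g := fun _ => (1 : ZMod (q ^ 4)))
        (fun k _ => by rw [← mul_pow, hov, one_pow])]
      simp
    rw [h1]
    exact iv_cast hQ
  · rw [if_neg h.ne']
    obtain ⟨d, rfl⟩ : ∃ d, a = b + d := ⟨a - b, by omega⟩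
    have h1 : ∑ k ∈ Finset.range (q - 1), o ^ ((b + d) * k) * v ^ (b * k) =
        ∑ k ∈ Finset.range (q - 1), (o ^ d) ^ k := by
      refine Finset.sum_congr rfl fun k _ => ?_
      rw [Nat.add_mul, pow_add, mul_assoc, mul_comm (o ^ (d * k)), ← mul_assoc, ← mul_pow, hov,
        one_pow, one_mul, pow_mul]
    have hu : IsUnit (o ^ d - 1) := isUnit_om hQ (i := d) (by omega) (by omega)
    have h4 : (o ^ d - 1) * ∑ k ∈ Finset.range (q - 1), (o ^ d) ^ k = 0 := by
      rw [mul_comm, geom_sum_mul, ← pow_mul, mul_comm d, pow_mul, ho1, one_pow, sub_self]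
    rw [h1, (hu.mul_right_eq_zero).1 h4, zero_mul]

end Root

/-! ### (d) The transforms of the digits -/

/-- Cut-off of a sequence. -/
def cut (D : ℕ) (d : ℕ → ℕ) (i : ℕ) : ℕ := if i < D then d i else 0

theorem cut_of_lt {D i : ℕ} (h : i < D) (d : ℕ → ℕ) : cut D d i = d i := if_pos h

theorem cut_of_le {D i : ℕ} (h : D ≤ i) (d : ℕ → ℕ) : cut D d i = 0 := if_neg (by omega)

theorem conv_cut_eq {R : Type*} [CommSemiring R] (D : ℕ) (d e : ℕ → ℕ) (j : ℕ) :
    ((H778.conv (cut D d) (cut D e) j : ℕ) : R) =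
      ∑ a ∈ Finset.range D, ∑ b ∈ Finset.range D,
        (d a : R) * (e b : R) * (if a + b = j then 1 else 0) := by
  unfold H778.conv
  push_cast
  have h1 : ∀ a ∈ Finset.range D, ∑ b ∈ Finset.range D,
      (d a : R) * (e b : R) * (if a + b = j then 1 else 0) =
      if a ≤ j then (cut D d a : R) * (cut D e (j - a) : R) else 0 := by
    intro a ha
    have ha' := Finset.mem_range.1 ha
    rw [cut_of_lt ha']
    split_ifs with haj
    · by_cases hb : j - a < D
      · rw [Finset.sum_eq_single (j - a)]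
        · rw [if_pos (by omega), cut_of_lt hb, mul_one]
        · intro b _ hb2
          rw [if_neg (by omega), mul_zero]
        · intro h
          exact absurd (Finset.mem_range.2 hb) h
      · rw [cut_of_le (by omega), Nat.cast_zero, mul_zero]
        refine Finset.sum_eq_zero fun b hb2 => ?_
        have := Finset.mem_range.1 hb2
        rw [if_neg (by omega), mul_zero]
    · refine Finset.sum_eq_zero fun b _ => ?_
      rw [if_neg (by omega), mul_zero]
  rw [Finset.sum_congr rfl h1]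
  have h2 : ∑ a ∈ Finset.range (j + 1), (cut D d a : R) * (cut D e (j - a) : R) =
      ∑ a ∈ Finset.range (D + (j + 1)),
        if a ≤ j then (cut D d a : R) * (cut D e (j - a) : R) else 0 := by
    rw [← Finset.sum_filter]
    refine Finset.sum_congr ?_ fun _ _ => rfl
    ext a
    simp only [Finset.mem_range, Finset.mem_filter]
    omega
  rw [h2]
  symm
  refine Finset.sum_subset ?_ ?_
  · intro a ha
    have := Finset.mem_range.1 ha
    exact Finset.mem_range.2 (by omega)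
  · intro a _ ha
    have : D ≤ a := by
      by_contra h
      exact ha (Finset.mem_range.2 (by omega))
    rw [cut_of_le this]
    simp

theorem conv_cut_le {D g : ℕ} {d e : ℕ → ℕ} (hd : ∀ i < D, d i < 2 ^ g)
    (he : ∀ i < D, e i < 2 ^ g) (j : ℕ) :
    H778.conv (cut D d) (cut D e) j ≤ D * 2 ^ (2 * g) := by
  have h := conv_cut_eq (R := ℕ) D d e j
  simp only [Nat.cast_id] at h
  rw [h]
  calc ∑ a ∈ Finset.range D, ∑ b ∈ Finset.range D, d a * e b * (if a + b = j then 1 else 0)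
      ≤ ∑ a ∈ Finset.range D, 2 ^ (2 * g) := by
        refine Finset.sum_le_sum fun a ha => ?_
        have ha' := Finset.mem_range.1 ha
        calc ∑ b ∈ Finset.range D, d a * e b * (if a + b = j then 1 else 0)
            ≤ ∑ b ∈ Finset.range D, if b = j - a then 2 ^ (2 * g) else 0 := by
              refine Finset.sum_le_sum fun b hb => ?_
              have hb' := Finset.mem_range.1 hb
              by_cases hab : a + b = j
              · rw [if_pos hab, if_pos (by omega), mul_one, two_mul, pow_add]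
                exact Nat.mul_le_mul (hd a ha').le (he b hb').le
              · rw [if_neg hab, mul_zero]
                exact Nat.zero_le _
          _ ≤ 2 ^ (2 * g) := by
              rw [Finset.sum_ite_eq']
              split_ifs
              · exact le_rfl
              · exact Nat.zero_le _
    _ = D * 2 ^ (2 * g) := by rw [Finset.sum_const, Finset.card_range, smul_eq_mul]

section Final

variable {W q om nu iv : ℕ} (hQ : Prm W q om nu iv)

/-- The forward transform of the digits `d 0, …, d (D - 1)`, as computed by the passes. -/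
def fwd (W q om nu : ℕ) (d : ℕ → ℕ) (k : ℕ) : ℕ :=
  cztN (dB W) (q ^ 4) (om) (nu) (fun i => preN (q ^ 4) (om) (d i) i) k

include hQ

theorem fwd_eq (d : ℕ → ℕ) (k : ℕ) :
    fwd W q om nu d k = (∑ i ∈ Finset.range (dB W), d i * om ^ (i * k)) % q ^ 4 :=
  cztN_eq hQ.om_nu (one_lt_m hQ) d k

theorem fwd_lt (d : ℕ → ℕ) (k : ℕ) : fwd W q om nu d k < q ^ 4 := by
  rw [fwd_eq hQ]; exact Nat.mod_lt _ (m_pos hQ)

theorem fwd_cast (d : ℕ → ℕ) (k : ℕ) : ((fwd W q om nu d k : ℕ) : ZMod (q ^ 4)) =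
    ∑ i ∈ Finset.range (dB W), (d i : ZMod (q ^ 4)) *
      ((om : ℕ) : ZMod (q ^ 4)) ^ (i * k) := by
  rw [fwd_eq hQ, ZMod.natCast_mod]
  push_cast
  rfl

/-- (d): the inverse transform of the products of the values of the transforms. -/
theorem inv_fwd {d e : ℕ → ℕ} (hd : ∀ i < dB W, d i < 2 ^ gB W)
    (he : ∀ i < dB W, e i < 2 ^ gB W) {j : ℕ} (hj : j < 2 * dB W - 1) :
    cztN (q - 1) (q ^ 4) (nu) (om)
      (fun k => fwd W q om nu d k * fwd W q om nu e k % q ^ 4 *
        (iv * (nu ^ tri (k + 1) % q ^ 4) % q ^ 4) % q ^ 4) j =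
      H778.conv (cut (dB W) d) (cut (dB W) e) j := by
  have h1 := cztN_eq' (P := q - 1) (m := q ^ 4) (r := nu) (ri := om)
    (by have := om_mul_nu_modEq hQ; rwa [mul_comm])
    (fun k => fwd W q om nu d k * fwd W q om nu e k * iv)
    (fun k => fwd W q om nu d k * fwd W q om nu e k % q ^ 4 *
        (iv * (nu ^ tri (k + 1) % q ^ 4) % q ^ 4) % q ^ 4)
    (fun k _ => by
      refine (Nat.mod_modEq _ _).trans ?_
      have h2 : fwd W q om nu d k * fwd W q om nu e k % q ^ 4 *
          (iv * (nu ^ tri (k + 1) % q ^ 4) % q ^ 4) ≡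
          fwd W q om nu d k * fwd W q om nu e k * (iv * nu ^ tri (k + 1)) [MOD q ^ 4] :=
        (Nat.mod_modEq _ _).mul ((Nat.mod_modEq _ _).trans
          ((Nat.ModEq.refl _).mul (Nat.mod_modEq _ _)))
      rwa [← mul_assoc] at h2) j
  rw [h1]
  have hlt : H778.conv (cut (dB W) d) (cut (dB W) e) j < q ^ 4 :=
    (conv_cut_le hd he j).trans_lt (D_mul_lt hQ)
  have hmod : (∑ i ∈ Finset.range (q - 1), fwd W q om nu d i * fwd W q om nu e i * iv *
      nu ^ (i * j)) ≡ H778.conv (cut (dB W) d) (cut (dB W) e) j [MOD q ^ 4] := by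
    refine (ZMod.natCast_eq_natCast_iff _ _ _).1 ?_
    rw [conv_cut_eq]
    push_cast
    simp only [fwd_cast hQ]
    set o : ZMod (q ^ 4) := ((om : ℕ) : ZMod (q ^ 4)) with ho
    set v : ZMod (q ^ 4) := ((nu : ℕ) : ZMod (q ^ 4)) with hv
    set c : ZMod (q ^ 4) := ((iv : ℕ) : ZMod (q ^ 4)) with hc
    calc ∑ k ∈ Finset.range (q - 1), (∑ i ∈ Finset.range (dB W), (d i : ZMod (q ^ 4)) *
          o ^ (i * k)) * (∑ i ∈ Finset.range (dB W), (e i : ZMod (q ^ 4)) * o ^ (i * k)) * c *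
          v ^ (k * j)
        = ∑ k ∈ Finset.range (q - 1), ∑ a ∈ Finset.range (dB W), ∑ b ∈ Finset.range (dB W),
          (d a : ZMod (q ^ 4)) * (e b : ZMod (q ^ 4)) *
            (o ^ ((a + b) * k) * v ^ (j * k) * c) := by
          refine Finset.sum_congr rfl fun k _ => ?_
          rw [Finset.sum_mul_sum, Finset.sum_mul, Finset.sum_mul]
          refine Finset.sum_congr rfl fun a _ => ?_
          rw [Finset.sum_mul, Finset.sum_mul]
          refine Finset.sum_congr rfl fun b _ => ?_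
          rw [Nat.add_mul, pow_add, mul_comm k j]
          ring
      _ = ∑ a ∈ Finset.range (dB W), ∑ b ∈ Finset.range (dB W),
          (d a : ZMod (q ^ 4)) * (e b : ZMod (q ^ 4)) *
            ∑ k ∈ Finset.range (q - 1), (o ^ ((a + b) * k) * v ^ (j * k) * c) := by
          rw [Finset.sum_comm]
          refine Finset.sum_congr rfl fun a _ => ?_
          rw [Finset.sum_comm]
          refine Finset.sum_congr rfl fun b _ => ?_
          rw [Finset.mul_sum]
      _ = _ := by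
          refine Finset.sum_congr rfl fun a ha => Finset.sum_congr rfl fun b hb => ?_
          have ha' := Finset.mem_range.1 ha
          have hb' := Finset.mem_range.1 hb
          have h2 := two_D_le hQ
          have h3 := hQ.hq1
          rw [orth hQ (a := a + b) (b := j) (by omega) (by omega)]
  unfold Nat.ModEq at hmod
  rw [hmod, Nat.mod_eq_of_lt hlt]

end Final

end Vale.Agent.P338.R2.H282.Bp
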