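import Vale.Agent.P338.R2.H282.Bp.Embed
import Vale.Agent.P338.R2.H101.Bp.End

/-!
P338, stage 3: the exact inequality, given the parts of a phase.
-/

namespace Vale.Agent.P338.R2.H282.Bp

open Vale.Agent.P338.R2.H898
open Vale.Agent.P338.R2.H784.Bp

/-- **The exact inequality, given the parts of a phase.** -/
theorem exactIneq_of_parts {A A₀ : MTM} {Y : Type} [Finite Y] (hA : Multiplies A)
    (hA₀ : Multiplies A₀) (h : Parts A A₀ Y gB) : ExactIneq 18432 A :=
  H101.Bp.exactIneq_of_costT (by norm_num) hA fun ρ _ => costT_of_parts hA hA₀ h 1 ρ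

end Vale.Agent.P338.R2.H282.Bp
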