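import Vale.Agent.P338.R2.H282.Bp.Phase
import Vale.Agent.P338.R2.H101.Bp.Machine

/-!
P338, stage 3: a phase with the batch multiplication in the files of the complete program.
-/

namespace Vale.Agent.P338.R2.H282.Bp

open Vale.Agent.P338.R2.H898
open Vale.Agent.P338.R2.H968
open Vale.Agent.P338.R2.H784
open Vale.Agent.P338.R2.H784.Fp
open Vale.Agent.P338.R2.H784.Bp
open Vale.Agent.P338.R2.H968.CallEnv (mem0 callC)
open Vale.Agent.P338.R2.H525 (dBits)
open Vale.Agent.P338.R2.H778.FpW (PN vI)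

/-- The additional files of the complete program. -/
abbrev Y2 (T₀ Y : Type) : Type := (T₀ ⊕ ZF) ⊕ (NF ⊕ Y)

/-- More additional files. -/
def up {T Y₁ : Type} (Y₂ : Type) : FF T Y₁ → FF T (Y₁ ⊕ Y₂) := Sum.map id Sum.inl

theorem up_inj {T Y₁ Y₂ : Type} : Function.Injective (up (T := T) (Y₁ := Y₁) Y₂) :=
  Function.Injective.sumMap Function.injective_id Sum.inl_injective

/-- The embedding of the files of a phase. -/
def emb2 (T T₀ Y : Type) : LG T T₀ Y → FF T (Y2 T₀ Y)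
  | .inl f => up (NF ⊕ Y) (emb T T₀ f)
  | .inr y => .inr (.inr y)

theorem up_ne {T Y₁ Y₂ : Type} (f : FF T Y₁) (y : Y₂) :
    up Y₂ f ≠ (.inr (.inr y) : FF T (Y₁ ⊕ Y₂)) := by
  rcases f with f | f <;> simp [up]

theorem emb2_inj (T T₀ Y : Type) : Function.Injective (emb2 T T₀ Y) := by
  intro a b hab
  rcases a with a | a <;> rcases b with b | b
  · exact congrArg _ (emb_inj T T₀ (up_inj hab))
  · exact absurd hab (up_ne _ _)
  · exact absurd hab.symm (up_ne _ _)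
  · simpa [emb2] using hab

/-- The files of the program outside the phase. -/
theorem emb2_jj2 {T T₀ Y : Type} {x : TF} (h : x ≠ .dat) (h1 : x ≠ .clk) (h2 : x ≠ .nr)
    (h3 : x ≠ .el) (h4 : x ≠ .hh) (f : LG T T₀ Y) : emb2 T T₀ Y f ≠ jj2 T (Y2 T₀ Y) x := by
  rcases f with f | f
  · intro h5
    exact emb_jj2 h h1 h2 h3 h4 f (up_inj (Y₂ := NF ⊕ Y) h5)
  · simp [emb2, jj2]

theorem emb2_io {T T₀ Y : Type} {g : LG T T₀ Y} {f : T ⊕ RF}
    (h : emb2 T T₀ Y g = io T (Y2 T₀ Y) f) : shared f ∨ ∃ i, f = .inl i := by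
  rcases g with g | g
  · exact emb_io (T₀ := T₀) (up_inj (Y₂ := NF ⊕ Y) h)
  · simp [emb2, io] at h

/-- The additional files are empty. -/
theorem emb2_inr {T T₀ Y α : Type} {u : α} {g : LG T T₀ Y} {y : Y2 T₀ Y} {S : ZS α} {B : BS α}
    (h : emb2 T T₀ Y g = .inr y) (h1 : S.opX = ⟨[], []⟩) (h2 : S.opY = ⟨[], []⟩)
    (h3 : S.res = ⟨[], []⟩) (h4 : ∀ k, k ≠ .el → k ≠ .hh → S.r k = 0)
    (h5 : ∀ k, S.w k = ⟨[], []⟩) (hB : ∀ f, bstN u B f = ⟨[], []⟩) : z2 u S B g = ⟨[], []⟩ := by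
  rcases g with g | g | g
  · have h6 : ∃ y', emb T T₀ g = .inr y' := by
      rcases h7 : emb T T₀ g with f | f
      · simp [emb2, up, h7] at h
      · exact ⟨f, rfl⟩
    obtain ⟨y', h6⟩ := h6
    exact emb_inr h6 h1 h2 h3 h4 h5
  · exact hB g
  · rfl

theorem bstN_bN (A A₀ : MTM) (f : NF) : bstN .u (bN A A₀) f = ⟨[], []⟩ := by
  cases f <;> rfl

open Classical in
/-- **A phase in the files of the complete program.** -/
theorem phSpec2 {A A₀ : MTM} {Y : Type} (hA : Multiplies A) (hA₀ : Multiplies A₀) {τ : ℕ → ℕ}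
    {rd pr upr : PG A A₀ Y} {c : ℕ} (hrd : RoundOK rd c τ) (hpr : ParOK pr c)
    (hup : UnparOK upr c) [DecidableEq (FF A.Tape (Y2 A₀.Tape Y))] :
    PhSpec (dd A A₀) .u (fun b => Sy.l (bitL b)) (jj2 A.Tape (Y2 A₀.Tape Y))
      ((phase2 rd pr upr).map (Lens.idL _) (emb2 A.Tape A₀.Tape Y))
      (RQ2 A A₀ (Y2 A₀.Tape Y)) (mulTime A) (fun W => (W + 1) * τ W) (2 * cP2 A A₀ c) := by
  intro l h n X s hn hl hel hhh hnr hdat hclk hR
  obtain ⟨hm, hz, hy⟩ := hR
  obtain ⟨t, h', K, hK, ht, hh1, hh2, hh3, hrun⟩ := phase_run2 (A := A) (A₀ := A₀) (h := h)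
    hA hA₀ hrd hpr hup hl hn X
  have hc : 1 ≤ 2 * cP2 A A₀ c := by
    unfold cP2
    omega
  refine ⟨t, h', K, hK.trans (Nat.le_mul_of_pos_left _ (by omega)), ht, hh1, hh2, hh3, ?_⟩
  have hrun' := hrun.map (L := Lens.idL (Mem A A₀)) (ι := emb2 A.Tape A₀.Tape Y)
    (emb2_inj _ _ _)
    (S := s) (by
      unfold Store.pull
      simp only [Lens.idL, Store.mk.injEq]
      refine ⟨hm, ?_⟩
      funext f
      rcases f with f | f | f
      · rcases f with i | i | (_ | _ | _ | _ | _ | _ | k | k | k | k)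
        · exact hz (.inl i) (by simp [shared])
        · exact hy _
        · exact hdat
        · exact hclk.eq_nil
        · exact hy _
        · exact hy _
        · exact hy _
        · exact hnr
        · cases k
          case el => exact hel
          case hh => exact hhh
          all_goals exact hy _
        · exact hy _
        · exact hy _
        · exact hy _
      · exact (hy _).trans (bstN_bN A A₀ f).symm
      · exact hy _)
  refine Tri.of_run hrun' ?_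
  set S1 := Store.put (Lens.idL (Mem A A₀)) (emb2 A.Tape A₀.Tape Y) s
    (st2 Y (sI A A₀ l h' n (bw A A₀ (dBits l h' X))) (bN A A₀)) with hS1
  have hz1 : ∀ f : LG A.Tape A₀.Tape Y, S1.z (emb2 A.Tape A₀.Tape Y f) =
      z2 .u (sI A A₀ l h' n (bw A A₀ (dBits l h' X))) (bN A A₀) f := fun f =>
    Store.put_z_apply (emb2_inj _ _ _) _ _ f
  have hgen : ∀ f, (∀ g, emb2 A.Tape A₀.Tape Y g ≠ f) → S1.z f = s.z f := fun f hf =>
    Store.put_z_of_notMem _ _ hf
  refine ⟨hz1 (og .dat), hz1 (og (.r .hh)), ?_, ?_, ?_, ?_, ?_⟩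
  · exact (hz1 (og .clk)).trans rfl
  · intro x e1 e2 e3
    by_cases e4 : x = .nr
    · subst e4
      exact (hz1 (og .nr)).trans hnr.symm
    by_cases e5 : x = .el
    · subst e5
      exact (hz1 (og (.r .el))).trans hel.symm
    exact hgen _ (emb2_jj2 e1 e3 e4 e5 e2)
  · rfl
  · intro f hf
    by_cases hf2 : ∃ i, f = .inl i
    · obtain ⟨i, rfl⟩ := hf2
      exact hz1 (.inl (.inl i))
    · rw [hgen _ fun g hg => ?_]
      · exact hz _ hf
      · rcases emb2_io hg with h | h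
        · exact hf h
        · exact hf2 h
  · intro y
    by_cases hy2 : ∃ f, emb2 A.Tape A₀.Tape Y f = .inr y
    · obtain ⟨f, hf⟩ := hy2
      rw [← hf, hz1 f]
      exact emb2_inr hf rfl rfl rfl (fun k h1 h2 => vI_zero h1 h2) (fun _ => rfl)
        (bstN_bN A A₀)
    · rw [hgen _ fun g hg => hy2 ⟨g, hg⟩]
      exact hy y

/-- The parts of a phase. -/
def Parts (A A₀ : MTM) (Y : Type) (τ : ℕ → ℕ) : Prop :=
  ∀ [DecidableEq (LG A.Tape A₀.Tape Y)], ∃ (rd pr upr : PG A A₀ Y) (c : ℕ),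
    RoundOK rd c τ ∧ ParOK pr c ∧ UnparOK upr c

/-- **The reduction, given the parts of a phase.** -/
theorem costT_of_parts {A A₀ : MTM} {Y : Type} [Finite Y] (hA : Multiplies A)
    (hA₀ : Multiplies A₀) {τ : ℕ → ℕ} (h : Parts A A₀ Y τ) (k ρ : ℕ) :
    ∃ B : MTM, Transposes B ∧ ∃ c : ℕ, ∀ r s : ℕ, 1 ≤ r → 1 ≤ s → Near r s →
      ∀ N : Fin r → Fin s → Bool,
        H101.Bp.CostT k (mulTime A) (fun W => (W + 1) * τ W) (18432 * H898.mu r s + ρ) (ex r s) c
          (B.time (matWord N)) := by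
  classical
  have := A₀.finTape
  obtain ⟨rd, pr, upr, c, h1, h2, h3⟩ := h
  exact H101.Bp.costT_of_ph (A₀ := A₀) (Y := Y2 A₀.Tape Y) hA
    (fun {_} => ⟨_, _, phSpec2 hA hA₀ h1 h2 h3⟩) k ρ

end Vale.Agent.P338.R2.H282.Bp
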