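import Vale.Agent.P338.R2.H784.Bp.Goals

/-!
P338, stage 3: one phase over `F_p` with the batch multiplication.
-/

namespace Vale.Agent.P338.R2.H282.Bp

open Vale.Agent.P338.R2.H898
open Vale.Agent.P338.R2.H968
open Vale.Agent.P338.R2.H784
open Vale.Agent.P338.R2.H784.Fp
open Vale.Agent.P338.R2.H784.Bp
open Vale.Agent.P338.R2.H968.CallEnv (mem0 callC)
open Vale.Agent.P338.R2.H525 (dBits mulBits)
open Vale.Agent.P338.R2.H525.Fp (sPar hPar par)
open Vale.Agent.P338.R2.H778 (bits)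
open Vale.Agent.P338.R2.H778.Fp (ifLt tri_ifLt)
open Vale.Agent.P338.R2.H778.FpW (PN vI vA vB)
open Function (update)

variable {A A₀ : MTM} {Y : Type} {l W h n p w : ℕ}

/-- The new files during the rounds. -/
abbrev bR (A A₀ : MTM) (W n q om nu iv : ℕ) : BS (Al A A₀) :=
  bZ A A₀ W n q om nu iv ⟨[], []⟩ ⟨[], []⟩ ⟨[], []⟩ ⟨[], []⟩

/-- A program on the old files. -/
abbrev old (Y : Type) (a : Prog (Mem A A₀) (LF A.Tape A₀.Tape) (Al A A₀)) : PG A A₀ Y :=
  a.map (Lens.idL (Mem A A₀)) (Sum.inl : LF A.Tape A₀.Tape → LG A.Tape A₀.Tape Y)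

section

variable [DecidableEq (LG A.Tape A₀.Tape Y)]

/-- Eight rounds. -/
theorem run_rounds {rd : PG A A₀ Y} {c : ℕ} {τ : ℕ → ℕ} (hrd : RoundOK rd c τ)
    {q om nu iv : ℕ} (hP : Prm W q om nu iv) (hWl : W ≤ l)
    (hp : p.Prime) (hp1 : 2 * 2 ^ sPar W < p)
    (hp2 : p ≤ 4 * 2 ^ sPar W) (hw : orderOf (w : ZMod p) = p - 1) (hwp : w < p)
    (hn : 576 * 4 ^ l ≤ n) (M : ℕ → ℕ → Bool) :
    Prog.Run (dd A A₀) (rep 8 rd)
      (st2 Y (sA l W W n p w (bw A A₀ (dBits l W M))) (bR A A₀ W n q om nu iv))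
      (8 * (c * (mulTime A n + n + 4 ^ l * τ W)) + 1)
      (st2 Y (sA l W (W - 8 * sPar W) n p w (bw A A₀ (dBits l (W - 8 * sPar W) M)))
        (bR A A₀ W n q om nu iv)) := by
  have hW : 32 ≤ W := le_trans (by norm_num) hP.hW
  obtain ⟨g1, g2, g3, g4, g5, g6, g7⟩ := par W hW
  have h1 := Tri.rep (d := dd A A₀) 8 rd
    (fun i s => s = st2 Y (sA l W (W - i * sPar W) n p w (bw A A₀ (dBits l (W - i * sPar W) M)))
      (bR A A₀ W n q om nu iv))
    (c * (mulTime A n + n + 4 ^ l * τ W))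
    (by
      rintro i hi s rfl
      have h2 : (i + 1) * sPar W ≤ 8 * sPar W := Nat.mul_le_mul_right _ (by omega)
      have h3 : (i + 1) * sPar W = i * sPar W + sPar W := by ring
      have h4 := hrd (l := l) (W := W) (h := W - i * sPar W) (n := n) (p := p) (w := w)
        M hP hWl (by omega) (by omega) hp hp1 hp2 hw hwp hn
      rw [show W - i * sPar W - sPar W = W - (i + 1) * sPar W by omega] at h4
      exact ⟨_, h4, rfl⟩)
    (s := st2 Y (sA l W W n p w (bw A A₀ (dBits l W M))) (bR A A₀ W n q om nu iv)) (by simp)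
  obtain ⟨s', hrun, rfl⟩ := h1
  exact hrun

end

section

variable [DecidableEq (LF A.Tape A₀.Tape)] [DecidableEq (Al A A₀)]

/-- The body of a phase. -/
noncomputable def body2 (rd pr up : PG A A₀ Y) : PG A A₀ Y :=
  .seq (old Y (H778.FpW.sched (jP A.Tape A₀.Tape) .u)) (.seq (old Y (setupP A A₀))
    (.seq pr (.seq (rep 8 rd) (.seq up (.seq (old Y (clrW A A₀))
      (old Y (H778.FpW.wipe (jP A.Tape A₀.Tape))))))))

variable [DecidableEq (LG A.Tape A₀.Tape Y)]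

theorem run_body2 {rd pr up : PG A A₀ Y} {c : ℕ} {τ : ℕ → ℕ} (hrd : RoundOK rd c τ)
    (hpr : ParOK pr c) (hup : UnparOK up c) (hW : 1024 ≤ W) (hWl : W ≤ l)
    (hn : 576 * 4 ^ l ≤ n) (M : ℕ → ℕ → Bool) :
    Prog.Run (dd A A₀) (body2 rd pr up)
      (st2 Y (sI A A₀ l W n (bw A A₀ (dBits l W M))) (bN A A₀))
      ((10 * c + 2400) * (mulTime A n + n + 4 ^ l + 4 ^ l * τ W))
      (st2 Y (sI A A₀ l (W - 8 * sPar W) n (bw A A₀ (dBits l (W - 8 * sPar W) M)))
        (bN A A₀)) := by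
  have hW32 : 32 ≤ W := le_trans (by norm_num) hW
  have r1 := run_old (Y := Y) (run_of_rp (T := A.Tape) (T₀ := A₀.Tape) (d := dd A A₀) (u := .u)
    (S := sI A A₀ l W n (bw A A₀ (dBits l W M)))
    (H778.FpW.rp_sched (M := Mem A A₀) (l := l) (jP_inj A.Tape A₀.Tape) hW32)
    rfl (mem0 A, mem0 A₀)) (bN A A₀)
  obtain ⟨p, w, q1, q2, q3, q4, q5, q6, r2⟩ := run_setupA (A := A) (A₀ := A₀) (l := l) (h := W)
    (n := n) hW32 (bw A A₀ (dBits l W M))
  have r2' := run_old (Y := Y) r2 (bN A A₀)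
  have hWn : 576 * 4 ^ W ≤ n :=
    (Nat.mul_le_mul_left _ (Nat.pow_le_pow_right (by norm_num) hWl)).trans hn
  obtain ⟨q, om, nu, iv, hP, r3⟩ := hpr (W := W)
    (S := sA l W W n p w (bw A A₀ (dBits l W M))) hW rfl hWn
  have r4 := run_rounds hrd hP hWl q1 q2 q3 q4 q6 hn M
  have r5 := hup (W := W) (n := n) (q := q) (om := om) (nu := nu) (iv := iv)
    (S := sA l W (W - 8 * sPar W) n p w (bw A A₀ (dBits l (W - 8 * sPar W) M)))
  have r6 := run_old (Y := Y) (run_clrWZ (A := A) (A₀ := A₀) (l := l) (W := W)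
    (h := W - 8 * sPar W) (n := n) (p := p) (w := w)
    (bw A A₀ (dBits l (W - 8 * sPar W) M))) (bN A A₀)
  have r7 := run_old (Y := Y) (run_of_rp (T := A.Tape) (T₀ := A₀.Tape) (d := dd A A₀) (u := .u)
    (S := ⟨bw A A₀ (dBits l (W - 8 * sPar W) M), ⟨[], []⟩, ⟨[], []⟩, ⟨[], []⟩, ⟨[], []⟩, n,
      vA l W (W - 8 * sPar W) (p - 1), fun _ => ⟨[], []⟩⟩)
    (H778.FpW.rp_wipe (M := Mem A A₀) (l := l) (w := W) (h := W - 8 * sPar W) (q := p - 1)
      (jP_inj A.Tape A₀.Tape))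
    rfl (mem0 A, mem0 A₀)) (bN A A₀)
  refine (r1.seq (r2'.seq (r3.seq (r4.seq (r5.seq (r6.seq r7)))))).mono ?_
  have h4 : 4 ^ W ≤ 4 ^ l := Nat.pow_le_pow_right (by norm_num) hWl
  have h5 : 1 ≤ 4 ^ l := Nat.one_le_pow _ _ (by norm_num)
  show 510 * 4 ^ W + (1800 * 4 ^ W + (c * (4 ^ W + n) + (8 * (c * (mulTime A n + n +
    4 ^ l * τ W)) + 1 + (c + (6 + 13))))) ≤ _
  have e1 : c * (4 ^ W + n) ≤ c * (4 ^ l + n) := Nat.mul_le_mul_left _ (by omega)
  have e2 : c ≤ c * 4 ^ l := Nat.le_mul_of_pos_right _ (by omega)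
  have e3 : (10 * c + 2400) * (mulTime A n + n + 4 ^ l + 4 ^ l * τ W) =
      8 * (c * (mulTime A n + n + 4 ^ l * τ W)) + c * (4 ^ l + n) + c * 4 ^ l +
      (2 * (c * mulTime A n) + c * n + 8 * (c * 4 ^ l) + 2 * (c * (4 ^ l * τ W)) +
      2400 * (mulTime A n + n + 4 ^ l * τ W)) + 2400 * 4 ^ l := by ring
  rw [e3]
  omega

omit [DecidableEq (LF A.Tape A₀.Tape)] [DecidableEq (Al A A₀)]
  [DecidableEq (LG A.Tape A₀.Tape Y)] in
theorem aux_cost (a c x y : ℕ) : a * (x + y + a * y * c) ≤ a * (1 + a * c) * (x + y) := by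
  rw [Nat.mul_assoc a (1 + a * c)]
  refine Nat.mul_le_mul_left _ ?_
  have : (1 + a * c) * (x + y) = x + y + a * y * c + a * c * x := by ring
  rw [this]
  exact Nat.le_add_right _ _

/-- One phase. -/
noncomputable def phase2 (rd pr up : PG A A₀ Y) : PG A A₀ Y :=
  ifLt (og (.r .hh)) 1023 (body2 rd pr up) (old Y (phaseQ A A₀))

/-- The constant in the cost of a phase. -/
noncomputable def cP2 (A A₀ : MTM) (c : ℕ) : ℕ :=
  10 * c + 5000 + (cP A A₀ + 1152) *
    (1 + (cP A A₀ + 1152) * ((Finset.range 1024).sup (mulTime A₀) + 1024))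

/-- **One phase.** -/
theorem phase_run2 {rd pr up : PG A A₀ Y} {c : ℕ} {τ : ℕ → ℕ} (hA : Multiplies A)
    (hA₀ : Multiplies A₀) (hrd : RoundOK rd c τ)
    (hpr : ParOK pr c) (hup : UnparOK up c) (hl : h ≤ l)
    (hn : 576 * 4 ^ l ≤ n) (M : ℕ → ℕ → Bool) :
    ∃ t h' K, K * (h + 1) ≤ 4 ^ l ∧
      t ≤ 2 * cP2 A A₀ c * (mulTime A n + n + 4 ^ l + K * ((h + 1) * τ h + h)) ∧ h' ≤ h ∧
      (32 ≤ h → h' ≤ Nat.log 2 h + 3) ∧ (h < 32 → h' = h) ∧
      Prog.Run (dd A A₀) (phase2 rd pr up)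
        (st2 Y (sI A A₀ l h n (bw A A₀ (dBits l h M))) (bN A A₀)) t
        (st2 Y (sI A A₀ l h' n (bw A A₀ (dBits l h' M))) (bN A A₀)) := by
  have h5 : 1 ≤ 4 ^ l := Nat.one_le_pow _ _ (by norm_num)
  have hlen : Len (.u : Al A A₀) 0 h
      ((st2 Y (sI A A₀ l h n (bw A A₀ (dBits l h M))) (bN A A₀)).z (og (.r .hh))) := by
    show Len _ 0 h (ru _ (vI l h .hh))
    simp [Len, ru, vI]
  by_cases h1024 : 1024 ≤ h
  · have h32 : 32 ≤ h := le_trans (by norm_num) h1024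
    obtain ⟨g1, g2, g3, g4, g5, g6, g7⟩ := par h h32
    have hlog : 5 ≤ Nat.log 2 h := Nat.le_log_of_pow_le (by norm_num) (by omega)
    have h1 : hPar h = Nat.log 2 h - 4 := rfl
    have hb := run_body2 hrd hpr hup h1024 hl hn M
    set K := 4 ^ l / (h + 1) with hK
    have k1 : K * (h + 1) ≤ 4 ^ l := Nat.div_mul_le_self _ _
    have hlt : h + 1 ≤ 4 ^ l :=
      (Nat.succ_le_of_lt (Nat.lt_pow_self (by norm_num : 1 < 4))).trans
        (Nat.pow_le_pow_right (by norm_num) hl)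
    have k2 : 1 ≤ K := Nat.div_pos hlt (by omega)
    have k3 : 4 ^ l ≤ 2 * (K * (h + 1)) := by
      have a1 := Nat.div_add_mod (4 ^ l) (h + 1)
      rw [← hK, mul_comm] at a1
      have a2 := Nat.mod_lt (4 ^ l) (show 0 < h + 1 by omega)
      have a3 : h + 1 ≤ K * (h + 1) := Nat.le_mul_of_pos_left _ (by omega)
      omega
    have k4 : 4 ^ l * τ h ≤ 2 * (K * ((h + 1) * τ h + h)) := by
      calc 4 ^ l * τ h ≤ 2 * (K * (h + 1)) * τ h := Nat.mul_le_mul_right _ k3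
        _ = 2 * (K * ((h + 1) * τ h)) := by ring
        _ ≤ _ := Nat.mul_le_mul_left _ (Nat.mul_le_mul_left _ (by omega))
    refine ⟨(10 * c + 2400) * (mulTime A n + n + 4 ^ l + 4 ^ l * τ h) + 2 * 1023 + 3,
      h - 8 * sPar h, K, k1, ?_, by omega, fun _ => by omega,
      fun h' => absurd h' (by omega), ?_⟩
    rotate_left
    · have h3 : Tri (dd A A₀) (phase2 rd pr up)
          (st2 Y (sI A A₀ l h n (bw A A₀ (dBits l h M))) (bN A A₀))
          ((10 * c + 2400) * (mulTime A n + n + 4 ^ l + 4 ^ l * τ h) + 2 * 1023 + 3)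
          (fun s => s = st2 Y (sI A A₀ l (h - 8 * sPar h) n
            (bw A A₀ (dBits l (h - 8 * sPar h) M))) (bN A A₀)) := by
        refine tri_ifLt (u := .u) (k := h) hlen ?_ ?_
        · intro _
          exact ⟨_, hb, rfl⟩
        · intro hh
          exact absurd hh (by omega)
      obtain ⟨s, h4, rfl⟩ := h3
      exact h4
    · have e1 : 2 * cP2 A A₀ c = (20 * c + 10000) + 2 * ((cP A A₀ + 1152) *
          (1 + (cP A A₀ + 1152) * ((Finset.range 1024).sup (mulTime A₀) + 1024))) := by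
        unfold cP2
        ring
      have e1' : 20 * c + 10000 ≤ 2 * cP2 A A₀ c := by
        rw [e1]
        exact Nat.le_add_right _ _
      refine le_trans ?_ (Nat.mul_le_mul_right _ e1')
      set Z := K * ((h + 1) * τ h + h) with hZ
      have e2 : (10 * c + 2400) * (mulTime A n + n + 4 ^ l + 4 ^ l * τ h) ≤
          (10 * c + 2400) * (mulTime A n + n + 4 ^ l + 2 * Z) :=
        Nat.mul_le_mul_left _ (by omega)
      have e3 : (20 * c + 10000) * (mulTime A n + n + 4 ^ l + Z) =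
          (10 * c + 2400) * (mulTime A n + n + 4 ^ l + 2 * Z) +
          (10 * c + 2600) * (mulTime A n + n + 4 ^ l) + 5200 * Z +
          5000 * (mulTime A n + n + 4 ^ l) := by ring
      rw [e3]
      omega
  · obtain ⟨t, h', K, hK, ht, hh1, hh2, hh3, hrun⟩ := phase_run (A := A) (A₀ := A₀) (h := h)
      hA hA₀ hl hn M
    have hrun' := run_old (Y := Y) hrun (bN A A₀)
    refine ⟨t + 2 * 1023 + 3, h', 0, by rw [Nat.zero_mul]; exact Nat.zero_le _, ?_, hh1, hh2,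
      hh3, ?_⟩
    · have m1 : mulTime A₀ h + h ≤ (Finset.range 1024).sup (mulTime A₀) + 1024 :=
        Nat.add_le_add (Finset.le_sup (f := mulTime A₀) (Finset.mem_range.2 (not_le.1 h1024)))
          (not_le.1 h1024).le
      set C₂ := (Finset.range 1024).sup (mulTime A₀) + 1024 with hC₂
      have m2 : K ≤ (cP A A₀ + 1152) * 4 ^ l :=
        (Nat.le_mul_of_pos_right _ (by omega : 0 < h + 1)).trans hK
      have m3 : K * (mulTime A₀ h + h) ≤ (cP A A₀ + 1152) * 4 ^ l * C₂ := Nat.mul_le_mul m2 m1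
      have m4 : t ≤ (cP A A₀ + 1152) * (mulTime A n + n + 4 ^ l +
          (cP A A₀ + 1152) * 4 ^ l * C₂) := ht.trans (Nat.mul_le_mul_left _ (by omega))
      have m5 := aux_cost (cP A A₀ + 1152) C₂ (mulTime A n + n) (4 ^ l)
      simp only [Nat.zero_mul, Nat.add_zero]
      set Z := (cP A A₀ + 1152) * (1 + (cP A A₀ + 1152) * C₂) * (mulTime A n + n + 4 ^ l)
      have m6 : 2 * cP2 A A₀ c * (mulTime A n + n + 4 ^ l) = 2 * Z +
          (20 * c * (mulTime A n + n + 4 ^ l) + 10000 * (mulTime A n + n + 4 ^ l)) := by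
        unfold cP2
        ring
      rw [m6]
      omega
    · have h3 : Tri (dd A A₀) (phase2 rd pr up)
          (st2 Y (sI A A₀ l h n (bw A A₀ (dBits l h M))) (bN A A₀)) (t + 2 * 1023 + 3)
          (fun s => s = st2 Y (sI A A₀ l h' n (bw A A₀ (dBits l h' M))) (bN A A₀)) := by
        refine tri_ifLt (u := .u) (k := h) hlen ?_ ?_
        · intro hh
          exact absurd hh (by omega)
        · intro _
          exact ⟨_, hrun', rfl⟩
      obtain ⟨s, h4, rfl⟩ := h3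
      exact h4

end

end Vale.Agent.P338.R2.H282.Bp
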